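import Crest.Agent.X262.Drop30.Defs
import Crest.Agent.X262.Vb.Bas1

/-!
# Row 262, DROP (helper74): descent

* `fgStmt`   : a configuration is defined over a finitely generated subfield;
* `descStmt` : `Sim` descends to a finite extension;
* `extStmt`  : extension of a valuation ring to the algebraic closure.
-/

set_option autoImplicit false
set_option linter.unusedSectionVars false

noncomputable section

namespace Crest.Agent.X262.DropD

open Crest.Agent.X277 Crest.Agent.X277.BD Crest.Agent.X262.Vb Crest.Agent.X262.Node22 Polynomial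
open Crest.Agent.X262.Drop30
open Crest.Agent.X262.Wd54 (NP GeqN)
open Crest.Agent.X277.BD.Cyc (Rf plV)

variable {J : Type} [Fintype J] [DecidableEq J] {io : J → Type} [∀ j, Fintype (io j)]
  [∀ j, DecidableEq (io j)] {K E : Type} [Field K] [Algebra ℂ K] [Field E] [Algebra ℂ E]
  {P I I' M : Type} [Fintype P] [Fintype I] [Fintype I']

/-- the rational vectors of a subspace -/
def dsc (α : K →ₐ[ℂ] E) (U : Submodule E (P → E)) : Submodule K (P → K) where
  carrier := {u | (fun x => α (u x)) ∈ U}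
  add_mem' {a b} ha hb := (congrArg (· ∈ U) (_root_.funext fun x => map_add α (a x) (b x))).mpr
    (U.add_mem ha hb)
  zero_mem' := (congrArg (· ∈ U) (_root_.funext fun _ => map_zero α)).mpr U.zero_mem
  smul_mem' c a ha := (congrArg (· ∈ U) (_root_.funext fun x => map_mul α c (a x))).mpr
    (U.smul_mem (α c) ha)

theorem mapS_dsc {α : K →ₐ[ℂ] E} {U : Submodule E (P → E)} {S : Finset P} {u : P → P → E}
    (h : Ech U S u) (hu : ∀ s x, ∃ a, α a = u s x) : mapS α (dsc α U) = U := by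
  refine le_antisymm (mapS_le fun _ hv => hv) fun w hw => ?_
  choose a ha using hu
  have e : w = ∑ s ∈ S, w s • fun x => α (a s x) := _root_.funext fun x => by
    rw [h.exp w hw x, Finset.sum_apply]
    simp only [ha, Pi.smul_apply, smul_eq_mul]
  rw [e]
  refine sum_mem fun s hs => Submodule.smul_mem _ _ (mem_mapS α ?_)
  change (fun x => α (a s x)) ∈ U
  simpa only [ha] using h.mem s hs

theorem mapS_inj (α : K →ₐ[ℂ] E) {U U' : Submodule K (P → K)} (h : mapS α U = mapS α U') :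
    U = U' := by
  ext w
  rw [← map_mem_mapS_iff α, h, map_mem_mapS_iff]

theorem exists_fg (N : ℕ) (z : Cfg io I E) : ∃ s : Finset E, ∀ k : IntermediateField ℂ E,
    (s : Set E) ⊆ k → ∃ z₀ : Cfg io I k, ((z₀.map k.val).y = z.y ∧
      ∀ κ : J → ℕ, (∀ j, κ j ≤ N) → (z₀.map k.val).V κ = z.V κ) ∧
      ∀ κ, z₀.V κ = dsc k.val (z.V κ) := by
  classical
  choose S u hu _ using fun κ => exists_ech (RZ.top ℂ E) (z.V κ)
  refine ⟨(Finset.univ.image fun p : I × Vr io => z.y p.1 p.2.1 p.2.2) ∪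
    Finset.univ.image fun p : (J → Fin (N + 1)) × I × I => u (fun j => p.1 j) p.2.1 p.2.2,
    fun k hk => ⟨⟨fun q j i => ⟨z.y q j i, hk ?_⟩, fun κ => dsc k.val (z.V κ)⟩, ⟨rfl,
      fun κ hκ => mapS_dsc (hu κ) fun s x => ⟨⟨u κ s x, hk ?_⟩, rfl⟩⟩, fun _ => rfl⟩⟩
  · exact Finset.mem_union_left _ (Finset.mem_image.2 ⟨(q, ⟨j, i⟩), Finset.mem_univ _, rfl⟩)
  · exact Finset.mem_union_right _ (Finset.mem_image.2
      ⟨(fun j => ⟨κ j, Nat.lt_succ_of_le (hκ j)⟩, s, x), Finset.mem_univ _, rfl⟩)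

theorem fgStmt : FgStmt io := fun N _ _ _ _ _ z =>
  (exists_fg N z).imp fun _ h k hk => (h k hk).imp fun _ h => h.1

/-- multiplicativity descends -/
theorem mul_desc (α : K →ₐ[ℂ] E) {z₀ : Cfg io I K} {z : Cfg io I E} (hy : (z₀.map α).y = z.y)
    (hV : ∀ κ, z₀.V κ = dsc α (z.V κ)) (h : Wd54.Mul z) : Wd54.Mul z₀ where
  one := hV 0 ▸ (congrArg (· ∈ z.V 0) (_root_.funext fun _ => map_one α)).mpr h.one
  crd j i := hV _ ▸ (congrArg (· ∈ z.V _)
    (_root_.funext fun q => congrFun (congrFun (congrFun hy q) j) i)).mpr (h.crd j i)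
  mul κ κ' u hu u' hu' := by
    rw [hV] at hu hu' ⊢
    exact (congrArg (· ∈ z.V _) (_root_.funext fun q => map_mul α (u q) (u' q))).mpr
      (h.mul κ κ' _ hu _ hu')

/-- proportionality descends -/
theorem exists_scl (α : K →ₐ[ℂ] E) {y y' : Pnt io K} {c : J → E} (hy : NZ y)
    (h : scl c (mapP α y) = mapP α y') : ∃ c' : J → K, (fun j => α (c' j)) = c := by
  choose i hi using hy
  refine ⟨fun j => y' j (i j) / y j (i j), _root_.funext fun j => ?_⟩
  rw [map_div₀, div_eq_iff ((map_ne_zero α).2 (hi j))]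
  exact (congrFun (congrFun h j) (i j)).symm

/-- equality in the multidegrees `≤ N` -/
def Eq0 (N : ℕ) (z z' : Cfg io I E) : Prop :=
  z.y = z'.y ∧ ∀ κ : J → ℕ, (∀ j, κ j ≤ N) → z.V κ = z'.V κ

variable {N : ℕ}

theorem geqN_desc (α : K →ₐ[ℂ] E) {w₀ : Cfg io P K} {w : Cfg io P E} (h0 : w₀.NZ)
    (hw : Eq0 N (w₀.map α) w) {g : I → P} {z : Cfg io I K} (h : GeqN N (w.res g) (z.map α)) :
    GeqN N (w₀.res g) z := by
  obtain ⟨c, hc, h1, h2⟩ := h
  have h3 : ∀ q, scl (c q) (mapP α (w₀.y (g q))) = mapP α (z.y q) := fun q => by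
    rw [← Cfg.map_y, hw.1]
    exact (congrFun h1 q).symm
  choose c' hc' using fun q => exists_scl α (h0 (g q)) (h3 q)
  refine ⟨c', fun q j h => hc q j ((congrFun (hc' q) j).symm.trans
    ((congrArg α h).trans (map_zero α))), ?_, fun κ hκ => mapS_inj α ?_⟩
  · funext q j i
    refine (α : K →+* E).injective ?_
    have := congrFun (congrFun (h3 q) j) i
    rw [← hc' q] at this
    exact ((map_mul α _ _).trans this).symm
  · change (z.map α).V κ = (((w₀.res g).gau c').map α).V κ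
    rw [Cfg.map_gau, ← Cfg.res_map, h2 κ hκ, _root_.funext hc']
    change sclS _ (Submodule.map _ _) = sclS _ (Submodule.map _ _)
    rw [hw.2 κ hκ]

theorem np_desc (α : K →ₐ[ℂ] E) {w₀ : Cfg io P K} {w : Cfg io P E} (hw : Eq0 N (w₀.map α) w)
    {g : I → P} (h : NP N w g) : NP N w₀ g := by
  intro κ hκ σ hσ V γ h1 q
  obtain ⟨W, rfl⟩ := cm_surjective α V
  obtain ⟨c, rfl⟩ := ValuationSubring.valuation_surjective _ γ
  have key : ∀ q, W.v (α (σ q)) ≤ W.v (α c) * (lw κ (w.y q)).val W ↔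
      (Wd.dn α W).v (σ q) ≤ (Wd.dn α W).v c * (lw κ (w₀.y q)).val _ := fun q => by
    rw [← hw.1, Cfg.map_y, lw_map, pb, val_mp_gen, ← v_gen (lw κ (w₀.y q)), ← map_mul, ← map_mul,
      Wd.dn_le_iff, map_mul α]
    rfl
  exact (key q).1 (h κ hκ _ ((hw.2 κ hκ).le (mem_mapS α hσ)) W _ (fun q => (key _).2 (h1 q)) q)

theorem par_desc (α : K →ₐ[ℂ] E) {y y' : Pnt io K} (hy : NZ y') (h : Par (mapP α y) (mapP α y')) :
    Par y y' := by
  obtain ⟨c, hc, h⟩ := h
  obtain ⟨c', rfl⟩ := exists_scl α hy h.symm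
  refine ⟨c', fun j h0 => hc j ((congrArg α h0).trans (map_zero α)),
    _root_.funext fun j => _root_.funext fun i => ?_⟩
  exact (α : K →+* E).injective ((congrFun (congrFun h j) i).trans (map_mul α _ _).symm)

/-- `Sim` descends to every subfield which contains a certain finite set -/
theorem sim_desc {z : Cfg io I E} {m : M → I} {z' : Cfg io I' E} {m' : M → I'}
    (h : Sim N z m z' m') : ∃ s : Finset E, ∀ k : IntermediateField ℂ E, (s : Set E) ⊆ k →
      ∀ (z₀ : Cfg io I k) (z₀' : Cfg io I' k), z₀.map k.val = z → z₀'.map k.val = z' →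
        Sim N z₀ m z₀' m' := by
  obtain ⟨Q, _, w, g, g', h0, hM, h1, h2, h3, h4, h5⟩ := h
  obtain ⟨s, hs⟩ := exists_fg N w
  refine ⟨s, fun k hk z₀ z₀' e e' => ?_⟩
  subst e e'
  obtain ⟨w₀, hw, hV⟩ := hs k hk
  have h6 : w₀.NZ := fun q => (nz_map k.val).1 (by rw [← Cfg.map_y, hw.1]; exact h0 q)
  refine ⟨Q, inferInstance, w₀, g, g', h6, mul_desc _ hw.1 hV hM, np_desc _ hw h1, np_desc _ hw h2,
    geqN_desc _ h6 hw h3, geqN_desc _ h6 hw h4, fun i => par_desc k.val ?_ (h5 i)⟩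
  obtain ⟨c, hc, h7, -⟩ := geqN_desc _ h6 hw h4
  rw [h7]
  exact (h6.res g').gau hc _

/-- finitely many algebraic elements generate a finite extension -/
theorem deg_ne_zero (α : K →ₐ[ℂ] E) (s : Finset E) (h : ∀ x ∈ s, IsAlgebraic α.fieldRange x)
    {k : IntermediateField ℂ E} (hk : k = IntermediateField.adjoin ℂ (Set.range α ∪ s))
    {α' : K →ₐ[ℂ] k} (e : k.val.comp α' = α) : deg α' ≠ 0 := by
  let _ : Algebra K E := (α : K →+* E).toAlgebra
  let _ : Algebra K k := α'.toRingHom.toAlgebra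
  have : IsScalarTower ℂ K E := IsScalarTower.of_algebraMap_eq fun c => (α.commutes c).symm
  have : IsScalarTower K k E := IsScalarTower.of_algebraMap_eq fun c =>
    (DFunLike.congr_fun e c).symm
  have h1 : FiniteDimensional K (IntermediateField.adjoin K (s : Set E)) :=
    IntermediateField.finiteDimensional_adjoin fun x hx =>
      ((h x hx).ringHom_of_comp_eq (α.equivFieldRange.symm : α.fieldRange →+* K) (RingHom.id E)
        α.equivFieldRange.symm.injective (RingHom.ext fun a => by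
          obtain ⟨a, rfl⟩ := α.equivFieldRange.surjective a
          simp; rfl)).isIntegral
  generalize hA : IntermediateField.adjoin K (s : Set E) = A at h1
  have h2 : k ≤ A.restrictScalars ℂ := by
    rw [hk, IntermediateField.adjoin_le_iff]
    rintro _ (⟨a, rfl⟩ | ha)
    · exact A.algebraMap_mem a
    · exact hA.le (IntermediateField.subset_adjoin _ _ ha)
  let f : k →ₗ[K] A :=
    { toFun := fun x => ⟨x, h2 x.2⟩
      map_add' := fun _ _ => rfl
      map_smul' := fun c x => Subtype.ext ((IsScalarTower.toAlgHom K k E).toLinearMap.map_smul c x) }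
  have h3 : FiniteDimensional K k := FiniteDimensional.of_injective f
    fun a b hab => Subtype.ext (congrArg (fun x : A => (x : E)) hab)
  exact Module.finrank_pos.ne'

theorem descStmt : DescStmt io := by
  intro N M I I' E₀ k E _ _ _ _ _ _ _ _ α β z m z' m' s h1 h2 h3
  classical
  obtain ⟨t, ht⟩ := sim_desc h3
  let E' := IntermediateField.adjoin ℂ (Set.range α ∪ ((s ∪ t : Finset E) : Set E))
  have ha : ∀ x, α x ∈ E' := fun x => IntermediateField.subset_adjoin _ _ (Or.inl ⟨x, rfl⟩)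
  have hb : ∀ x, β x ∈ E' := fun x => IntermediateField.adjoin.mono _ _ _
    (Set.union_subset_union_right _ (by simp)) (h2 ⟨x, rfl⟩)
  refine ⟨E', α.codRestrict E'.toSubalgebra ha, β.codRestrict E'.toSubalgebra hb,
    deg_ne_zero α (s ∪ t) (fun x _ => h1 x) rfl rfl, rfl, rfl, ht E' (fun x hx =>
      IntermediateField.subset_adjoin _ _ (Or.inr (by simp [hx]))) _ _ ?_ ?_⟩
  · exact Cfg.map_map _ _ _
  · exact Cfg.map_map _ _ _

/-- residue fields of algebraic extensions are algebraic -/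
theorem alg_ri (ι : K →ₐ[ℂ] E) (V : RZ ℂ E) {a : E} (ha : a ∈ V.1) {p : K[X]} (hp : p ≠ 0)
    (h : p.eval₂ (ι : K →+* E) a = 0) : IsAlgebraic (Wd.ri ι V).fieldRange (Wd.rr V a) := by
  obtain ⟨n, hn, h1⟩ := Finset.exists_max_image (Finset.range (p.natDegree + 1))
    (fun l => (Wd.dn ι V).v (p.coeff l)) ⟨0, by simp⟩
  have h2 : p.coeff n ≠ 0 := fun h0 => by
    have := h1 p.natDegree (by simp)
    rw [h0, map_zero, le_zero_iff, map_eq_zero] at this
    exact hp (leadingCoeff_eq_zero.1 this)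
  have h3 : ∀ l ∈ Finset.range (p.natDegree + 1), ι (p.coeff l / p.coeff n) ∈ V.1 := fun l hl =>
    Wd.mem_dn.1 ((RZ.le_iff h2).1 (h1 l hl))
  refine ⟨∑ l ∈ Finset.range (p.natDegree + 1), monomial l
    ⟨_, Wd.rr _ (p.coeff l / p.coeff n), rfl⟩, fun h0 => ?_, ?_⟩
  · have h5 := congrArg (fun q => (q.coeff n : Rf V)) h0
    simp [finsetSum_coeff, coeff_monomial, Finset.sum_ite_eq', hn, h2] at h5
  · rw [eval₂_eq_sum_range] at h
    have h4 : ∑ l ∈ Finset.range (p.natDegree + 1), ι (p.coeff l / p.coeff n) * a ^ l = 0 := by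
      simp only [map_div₀, div_mul_eq_mul_div, ← Finset.sum_div]
      exact div_eq_zero_iff.2 (Or.inl h)
    have h5 := congrArg (Wd.rr V) h4
    rw [Wd.rr, Wd.r_sum _ fun l hl => mul_mem (h3 l hl) (pow_mem ha l), Wd.rr, Pl.r_zero] at h5
    rw [map_sum, ← h5]
    refine Finset.sum_congr rfl fun l hl => ?_
    rw [aeval_monomial, Pl.r_mul (h3 l hl) (pow_mem ha l), Pl.r_pow ha]
    exact congrArg (· * _) (Wd.ri_rr ι V _)

/-- a finite extension embeds in an algebraically closed field, inside every valuation ring which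
contains the ground field -/
theorem exists_lift [IsAlgClosed E] {k k' : Type} [Field k] [Algebra ℂ k] [Field k'] [Algebra ℂ k']
    (γ : k →ₐ[ℂ] k') (δ : k →ₐ[ℂ] E) (h : deg γ ≠ 0) : ∃ δ' : k' →ₐ[ℂ] E, δ'.comp γ = δ ∧
      ∀ V : RZ ℂ E, (∀ x, δ x ∈ V.1) → ∀ x, δ' x ∈ V.1 := by
  let _ : Algebra k k' := γ.toRingHom.toAlgebra
  let _ : Algebra k E := (δ : k →+* E).toAlgebra
  have : IsScalarTower ℂ k k' := IsScalarTower.of_algebraMap_eq fun c => (γ.commutes c).symm
  have : IsScalarTower ℂ k E := IsScalarTower.of_algebraMap_eq fun c => (δ.commutes c).symm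
  have : FiniteDimensional k k' := Module.finite_of_finrank_pos (Nat.pos_of_ne_zero h)
  let φ : k' →ₐ[k] E := IsAlgClosed.lift
  refine ⟨φ.restrictScalars ℂ, AlgHom.ext fun x => φ.commutes x, fun V hV x => ?_⟩
  have h1 : IsIntegral V.1 (φ x) := ((Algebra.IsIntegral.isIntegral x).map φ).map_of_comp_eq
    ((δ : k →+* E).codRestrict V.1 hV) (RingHom.id E) rfl
  obtain ⟨y, hy⟩ := IsIntegrallyClosed.isIntegral_iff.1 h1
  exact hy ▸ y.2

theorem extStmt : ExtStmt := by
  intro L _ _ W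
  obtain ⟨V, rfl⟩ := cm_surjective (IsScalarTower.toAlgHom ℂ L (AlgebraicClosure L)) W
  refine ⟨_, _, _, inferInstance, _, V, Wd.ri _ V, rfl, Wd.ri_rr _ V, fun x => ?_,
    fun k k' _ _ _ _ γ δ h => (exists_lift γ δ h).imp fun _ h => ⟨h.1, h.2 V⟩⟩
  obtain ⟨a, ha, rfl⟩ := Wd.rr_surj V x
  obtain ⟨p, hp, h⟩ := Algebra.IsAlgebraic.isAlgebraic (R := L) a
  exact alg_ri _ V ha hp h

end Crest.Agent.X262.DropD
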